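import Vale.Agent.P318.R2.H924.Om.Defs
import Vale.Agent.P318.R2.H402.TwoDef

/-! Literal statements of the pieces (types only). -/

set_option autoImplicit false

namespace Vale.Agent.P318.R2.H924.Om

variable {K V : Type*} [Field K] [AddCommGroup V] [Module K V]

/-- the polar form is nondegenerate -/
def Nd (Q : QuadraticForm K V) : Prop := ∀ x, (∀ y, pl Q x y = 0) → x = 0

/-- every totally singular plane, line or point is orthogonal to a further singular vector -/
def P2 (Q : QuadraticForm K V) : Prop :=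
  ∀ u v : V, Q u = 0 → Q v = 0 → pl Q u v = 0 →
    ∃ t, Q t = 0 ∧ pl Q u t = 0 ∧ pl Q v t = 0 ∧ t ∉ Submodule.span K {u, v}

/-- the group of all Siegel transformations at `e` -/
def rad (Q : QuadraticForm K V) (e : V) (he : Q e = 0) : Subgroup (V ≃ₗ[K] V) where
  carrier := {g | ∃ (w : V) (hw : pl Q e w = 0), g = se e w he hw}
  mul_mem' := by
    rintro a b ⟨w, hw, rfl⟩ ⟨w', hw', rfl⟩
    exact ⟨w + w', by rw [map_add, hw, hw', add_zero], se_mul he hw hw'⟩
  one_mem' := ⟨0, map_zero _, LinearEquiv.ext fun x => (sg_zero e x).symm⟩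
  inv_mem' := by
    rintro a ⟨w, hw, rfl⟩
    exact ⟨-w, by rw [map_neg, hw, neg_zero], se_inv he hw⟩

/-- PIECE 1 (Chevalley-Warning): file Om/CW.lean, theorem p2 : StP2 -/
def StP2 (K V : Type*) [Field K] [AddCommGroup V] [Module K V] : Prop :=
  ∀ Q : QuadraticForm K V, Finite K → FiniteDimensional K V → Nd Q →
    7 ≤ Module.finrank K V → P2 Q

/-- PIECE 2 (generation): file Om/Gen.lean, theorem gen : StGen -/
def StGen (K V : Type*) [Field K] [AddCommGroup V] [Module K V] : Prop :=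
  ∀ Q : QuadraticForm K V, FiniteDimensional K V → Nd Q → P2 Q →
    ∀ (e f : V) (he : Q e = 0) (hf : Q f = 0), pl Q e f = 1 →
      Om Q ≤ rad Q e he ⊔ rad Q f hf

/-- PIECE 3 (scalars): file Om/Sca.lean, theorem sca : StSca -/
def StSca (K V : Type*) [Field K] [AddCommGroup V] [Module K V] : Prop :=
  ∀ Q : QuadraticForm K V, FiniteDimensional K V → Nd Q → P2 Q →
    ∀ g ∈ Om Q, (∀ h ∈ Om Q, g * h = h * g) ∨ ∃ e, Q e = 0 ∧ g e ∉ Submodule.span K {e}

end Vale.Agent.P318.R2.H924.Om
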