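import Vale.Agent.P318.R2.H924.Om.Tr

/-!
# Generation by two opposite radicals
-/

set_option autoImplicit false

namespace Vale.Agent.P318.R2.H924.Om

variable {K V : Type*} [Field K] [AddCommGroup V] [Module K V] {Q : QuadraticForm K V}

lemma se_move {y y' z : V} (hy : Q y = 0) (hy' : Q y' = 0) (hz : Q z = 0) (h1 : pl Q y z = 1)
    (hw : pl Q z (y' - y) = 0) : se z (y' - y) hz hw y = y' := by
  have hyy := pl_self_of Q hy
  rw [se_apply, h1, one_smul, mul_one]
  have h3 : pl Q y (y' - y) + Q (y' - y) = 0 := by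
    have e : Q (y' - y) = - pl Q y' y := by
      have := Q_sub_smul (Q := Q) 1 y' y
      rw [one_smul] at this
      rw [this, hy, hy']
      ring
    rw [e, map_sub, hyy, pl_comm Q y y']
    ring
  rw [h3, zero_smul]
  abel

/-- two opposite radicals generate -/
theorem gen_two (hnd : Nd Q) (e f : V) (he : Q e = 0) (hf : Q f = 0) (hef : pl Q e f = 1) :
    Om Q ≤ rad Q e he ⊔ rad Q f hf := by
  set H := rad Q e he ⊔ rad Q f hf with hH
  have heH : rad Q e he ≤ H := le_sup_left
  have hfH : rad Q f hf ≤ H := le_sup_right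
  have hle : ∀ (a : V) (ha : Q a = 0), rad Q a ha ≤ Om Q := by
    rintro a ha g ⟨w, hw, rfl⟩
    exact se_mem ha hw
  have hHO : H ≤ Om Q := sup_le (hle e he) (hle f hf)
  have hfe : pl Q f e = 1 := by rw [pl_comm, hef]
  -- the group acts on the set of good vectors
  have inv : ∀ g ∈ H, ∀ (v : V) (hv : Q v = 0),
      (∀ w (hw : pl Q (g v) w = 0) (hgv : Q (g v) = 0), se (g v) w hgv hw ∈ H) →
      ∀ w (hw : pl Q v w = 0), se v w hv hw ∈ H := by
    intro g hg v hv h w hw
    have hgv : Q (g v) = 0 := by rw [Q_Om (hHO hg), hv]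
    have hgw : pl Q (g v) (g w) = 0 := by rw [pl_Om (hHO hg), hw]
    have h1 := se_conj (hHO hg) hv hw hgv hgw
    have h2 := h (g w) hgw hgv
    rw [← h1] at h2
    have h3 := H.mul_mem (H.mul_mem (H.inv_mem hg) h2) hg
    have h4 : g⁻¹ * (g * se v w hv hw * g⁻¹) * g = se v w hv hw := by group
    rwa [h4] at h3
  have scal : ∀ (c : K) (v : V) (hv : Q v = 0), c ≠ 0 →
      (∀ w (hw : pl Q (c • v) w = 0) (hcv : Q (c • v) = 0), se (c • v) w hcv hw ∈ H) →
      ∀ w (hw : pl Q v w = 0), se v w hv hw ∈ H := by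
    intro c v hv hc h w hw
    have hcv : Q (c • v) = 0 := by rw [Q_smul, hv, mul_zero]
    have hcw : pl Q (c • v) (c⁻¹ • w) = 0 := by
      rw [map_smul, map_smul, LinearMap.smul_apply, hw, smul_zero, smul_zero]
    have h1 := h (c⁻¹ • w) hcw hcv
    have h2 : se (c • v) (c⁻¹ • w) hcv hcw = se v w hv hw := by
      refine se_congr _ _ _ _ fun x => ?_
      rw [map_smul, map_smul, Q_smul]
      simp only [smul_eq_mul]
      rw [smul_smul, smul_smul]
      congr 2
      · field_simp
      · field_simp
    rwa [h2] at h1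
  -- vectors not orthogonal to `f`
  have cf : ∀ (v : V) (hv : Q v = 0), pl Q v f ≠ 0 →
      ∀ w (hw : pl Q v w = 0), se v w hv hw ∈ H := by
    intro v hv hvf
    refine scal (pl Q v f)⁻¹ v hv (inv_ne_zero hvf) ?_
    set u := (pl Q v f)⁻¹ • v with hu
    intro w hw hu0
    have huf : pl Q u f = 1 := by
      rw [hu, map_smul, LinearMap.smul_apply, smul_eq_mul, inv_mul_cancel₀ hvf]
    have hz : pl Q f (e - u) = 0 := by rw [map_sub, hfe, pl_comm Q f u, huf, sub_self]
    have hm := se_move hu0 he hf huf hz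
    refine inv (se f (e - u) hf hz) (hfH ⟨e - u, hz, rfl⟩) u hu0 ?_ w hw
    intro w' hw' hgv
    have h1 : ∀ (a : V) (ha : Q a = 0) (haw : pl Q a w' = 0), a = e → se a w' ha haw ∈ H := by
      rintro a ha haw rfl
      exact heH ⟨w', haw, rfl⟩
    exact h1 _ hgv hw' hm
  have ce : ∀ (v : V) (hv : Q v = 0), pl Q v e ≠ 0 →
      ∀ w (hw : pl Q v w = 0), se v w hv hw ∈ H := by
    intro v hv hvf
    refine scal (pl Q v e)⁻¹ v hv (inv_ne_zero hvf) ?_
    set u := (pl Q v e)⁻¹ • v with hu
    intro w hw hu0
    have huf : pl Q u e = 1 := by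
      rw [hu, map_smul, LinearMap.smul_apply, smul_eq_mul, inv_mul_cancel₀ hvf]
    have hz : pl Q e (f - u) = 0 := by rw [map_sub, hef, pl_comm Q e u, huf, sub_self]
    have hm := se_move hu0 hf he huf hz
    refine inv (se e (f - u) he hz) (heH ⟨f - u, hz, rfl⟩) u hu0 ?_ w hw
    intro w' hw' hgv
    have h1 : ∀ (a : V) (ha : Q a = 0) (haw : pl Q a w' = 0), a = f → se a w' ha haw ∈ H := by
      rintro a ha haw rfl
      exact hfH ⟨w', haw, rfl⟩
    exact h1 _ hgv hw' hm
  have all : ∀ (v : V) (hv : Q v = 0), ∀ w (hw : pl Q v w = 0), se v w hv hw ∈ H := by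
    intro v hv
    by_cases hvf : pl Q v f = 0
    · by_cases hve : pl Q v e = 0
      · by_cases hv0 : v = 0
        · intro w hw
          have h1 : se v w hv hw = 1 := by
            subst hv0
            refine LinearEquiv.ext fun x => ?_
            rw [se_apply, map_zero, zero_smul, smul_zero]
            change x + 0 - 0 = x
            abel
          rw [h1]
          exact H.one_mem
        · obtain ⟨y, hy⟩ : ∃ y, pl Q v y ≠ 0 := by
            by_contra hcon
            exact hv0 (hnd v fun y => by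
              by_contra h
              exact hcon ⟨y, h⟩)
          have hez : pl Q e (y - pl Q e y • f) = 0 := by
            rw [map_sub, map_smul, hef, smul_eq_mul, mul_one, sub_self]
          have hvz : pl Q v (y - pl Q e y • f) = pl Q v y := by
            rw [map_sub, map_smul, hvf, smul_zero, sub_zero]
          refine inv (se e (y - pl Q e y • f) he hez) (heH ⟨_, hez, rfl⟩) v hv ?_
          intro w hw hgv
          refine cf _ hgv ?_ w hw
          rw [se_apply, hve, hvz]
          simp only [zero_smul, add_zero, mul_zero, map_sub, map_smul, LinearMap.sub_apply,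
            LinearMap.smul_apply, smul_eq_mul, hvf, hef, mul_one, zero_sub]
          exact neg_ne_zero.2 hy
      · exact ce v hv hve
    · exact cf v hv hvf
  unfold Om
  rw [Subgroup.closure_le]
  rintro g ⟨v, w, hv, hw, hg⟩
  have : g = se v w hv hw := LinearEquiv.ext fun y => (hg y).trans (se_apply hv hw y).symm
  rw [this]
  exact all v hv w hw

theorem gen2 (K V : Type*) [Field K] [AddCommGroup V] [Module K V] : StGen K V :=
  fun _ _ hnd _ e f he hf hef => gen_two hnd e f he hf hef

end Vale.Agent.P318.R2.H924.Om
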