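import Vale.Agent.P318.R2.H924.Om.PO
import Vale.Agent.P318.R2.H924.Om.Gen2

/-!
# The gap for the orthogonal groups: final form
-/

set_option autoImplicit false

namespace Vale.Agent.P318.R2.H924.Om

/-- the gap for the orthogonal groups in dimension at least seven -/
theorem gap_pomega {T : Type*} [Group T] [Finite T] (hT : IsPOmega T) :
    R2.H678.Gap T (1 / 128) :=
  gap_pomega_of hT fun K V _ _ _ => gen2 K V

end Vale.Agent.P318.R2.H924.Om
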