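import Mathlib

/-!
# Orthogonal groups generated by Siegel transformations

`Q` is a quadratic form with polar form `B x y = Q (x + y) - Q x - Q y`, in any characteristic.
For a singular vector `e` and `w` orthogonal to `e` the Siegel transformation is
`x + B x e • w - (B x w + Q w * B x e) • e`; `Om Q` is the group generated by all of them.
-/

set_option autoImplicit false
set_option linter.dupNamespace false

namespace Vale.Agent.P318.R2.H924.Om

variable {K V : Type*} [Field K] [AddCommGroup V] [Module K V]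

/-- the polar form -/
noncomputable abbrev pl (Q : QuadraticForm K V) : LinearMap.BilinForm K V :=
  QuadraticMap.polarBilin Q

section
variable (Q : QuadraticForm K V)

lemma pl_def (x y : V) : pl Q x y = Q (x + y) - Q x - Q y := rfl

lemma pl_comm (x y : V) : pl Q x y = pl Q y x := by
  rw [pl_def, pl_def, add_comm x y]
  ring

lemma Q_add (x y : V) : Q (x + y) = Q x + Q y + pl Q x y := by
  rw [pl_def]
  ring

lemma Q_smul (c : K) (x : V) : Q (c • x) = c * c * Q x := by
  rw [QuadraticMap.map_smul, smul_eq_mul]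

lemma pl_self (x : V) : pl Q x x = 2 * Q x := by
  rw [pl_def, ← two_smul K x, Q_smul]
  ring

lemma pl_self_of {x : V} (h : Q x = 0) : pl Q x x = 0 := by
  rw [pl_self, h, mul_zero]

/-- the Siegel transformation as a linear map -/
noncomputable def sg (e w : V) : V →ₗ[K] V where
  toFun x := x + pl Q x e • w - (pl Q x w + Q w * pl Q x e) • e
  map_add' x y := by
    simp only [map_add, LinearMap.add_apply]
    module
  map_smul' c x := by
    simp only [map_smul, LinearMap.smul_apply, smul_eq_mul, RingHom.id_apply]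
    module

lemma sg_apply (e w x : V) :
    sg Q e w x = x + pl Q x e • w - (pl Q x w + Q w * pl Q x e) • e := rfl

variable {Q}

lemma sg_add {e w w' : V} (he : Q e = 0) (hw : pl Q e w = 0) (hw' : pl Q e w' = 0) (x : V) :
    sg Q e w (sg Q e w' x) = sg Q e (w + w') x := by
  have h1 : pl Q w e = 0 := by rw [pl_comm, hw]
  have h2 : pl Q w' e = 0 := by rw [pl_comm, hw']
  have h3 := pl_self_of Q he
  have h4 : pl Q (sg Q e w' x) e = pl Q x e := by
    rw [sg_apply]
    simp only [map_add, map_sub, map_smul, LinearMap.add_apply, LinearMap.sub_apply,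
      LinearMap.smul_apply, smul_eq_mul, h2, h3]
    ring
  have h5 : pl Q (sg Q e w' x) w = pl Q x w + pl Q x e * pl Q w' w := by
    rw [sg_apply]
    simp only [map_add, map_sub, map_smul, LinearMap.add_apply, LinearMap.sub_apply,
      LinearMap.smul_apply, smul_eq_mul, hw]
    ring
  have h6 : Q (w + w') = Q w + Q w' + pl Q w' w := by rw [Q_add, pl_comm Q w w']
  rw [sg_apply Q e w, h4, h5, sg_apply Q e w', sg_apply Q e (w + w'), h6]
  simp only [map_add]
  module

lemma sg_zero (e x : V) : sg Q e 0 x = x := by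
  rw [sg_apply]
  simp

/-- the Siegel transformation as a linear equivalence -/
noncomputable def se (e w : V) (he : Q e = 0) (hw : pl Q e w = 0) : V ≃ₗ[K] V :=
  LinearEquiv.ofLinearMap (sg Q e w) (sg Q e (-w))
    (by
      ext x
      have hw' : pl Q e (-w) = 0 := by rw [map_neg, hw, neg_zero]
      rw [LinearMap.comp_apply, sg_add he hw hw', add_neg_cancel, sg_zero]
      rfl)
    (by
      ext x
      have hw' : pl Q e (-w) = 0 := by rw [map_neg, hw, neg_zero]
      rw [LinearMap.comp_apply, sg_add he hw' hw, neg_add_cancel, sg_zero]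
      rfl)

lemma se_apply {e w : V} (he : Q e = 0) (hw : pl Q e w = 0) (x : V) :
    se e w he hw x = x + pl Q x e • w - (pl Q x w + Q w * pl Q x e) • e := rfl

/-- the Siegel transformations preserve the form -/
lemma Q_se {e w : V} (he : Q e = 0) (hw : pl Q e w = 0) (x : V) : Q (se e w he hw x) = Q x := by
  have h1 : pl Q w e = 0 := by rw [pl_comm, hw]
  have h3 := pl_self_of Q he
  rw [se_apply, sub_eq_add_neg, ← neg_smul, Q_add, Q_add, Q_smul, Q_smul, he]
  simp only [map_add, map_smul, LinearMap.add_apply, LinearMap.smul_apply, smul_eq_mul, h1]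
  ring

end

variable (Q : QuadraticForm K V)

/-- the group generated by the Siegel transformations -/
def Om : Subgroup (V ≃ₗ[K] V) :=
  Subgroup.closure {g | ∃ e w : V, Q e = 0 ∧ pl Q e w = 0 ∧
    ∀ x, g x = x + pl Q x e • w - (pl Q x w + Q w * pl Q x e) • e}

variable {Q}

lemma se_mem {e w : V} (he : Q e = 0) (hw : pl Q e w = 0) : se e w he hw ∈ Om Q :=
  Subgroup.subset_closure ⟨e, w, he, hw, fun _ => rfl⟩

lemma Q_Om {g : V ≃ₗ[K] V} (hg : g ∈ Om Q) (x : V) : Q (g x) = Q x := by
  have h : Om Q ≤ {
      carrier := {g : V ≃ₗ[K] V | ∀ x, Q (g x) = Q x}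
      mul_mem' := by
        intro a b ha hb x
        rw [LinearEquiv.mul_apply, ha, hb]
      one_mem' := fun x => rfl
      inv_mem' := by
        intro a ha x
        have := ha (a⁻¹ x)
        rw [← LinearEquiv.mul_apply, mul_inv_cancel] at this
        exact this.symm : Subgroup (V ≃ₗ[K] V) } := by
    unfold Om
    rw [Subgroup.closure_le]
    rintro g ⟨e, w, he, hw, hg⟩ x
    have : g = se e w he hw := LinearEquiv.ext fun y => (hg y).trans (se_apply he hw y).symm
    rw [this, Q_se]
  exact h hg x

lemma pl_Om {g : V ≃ₗ[K] V} (hg : g ∈ Om Q) (x y : V) : pl Q (g x) (g y) = pl Q x y := by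
  rw [pl_def, pl_def, ← map_add, Q_Om hg, Q_Om hg, Q_Om hg]

/-- conjugation -/
lemma se_conj {g : V ≃ₗ[K] V} (hg : g ∈ Om Q) {e w : V} (he : Q e = 0) (hw : pl Q e w = 0)
    (he' : Q (g e) = 0) (hw' : pl Q (g e) (g w) = 0) :
    g * se e w he hw * g⁻¹ = se (g e) (g w) he' hw' := by
  ext x
  rw [LinearEquiv.mul_apply, LinearEquiv.mul_apply, se_apply, se_apply]
  have h1 : ∀ z, pl Q (g⁻¹ x) z = pl Q x (g z) := by
    intro z
    rw [← pl_Om hg (g⁻¹ x) z, ← LinearEquiv.mul_apply, mul_inv_cancel]
    rfl
  rw [map_sub, map_add, map_smul, map_smul, h1, h1, Q_Om hg, ← LinearEquiv.mul_apply,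
    mul_inv_cancel]
  rfl

lemma se_mul {e w w' : V} (he : Q e = 0) (hw : pl Q e w = 0) (hw' : pl Q e w' = 0) :
    se e w he hw * se e w' he hw' = se e (w + w') he (by rw [map_add, hw, hw', add_zero]) :=
  LinearEquiv.ext fun x => sg_add he hw hw' x

lemma se_inv {e w : V} (he : Q e = 0) (hw : pl Q e w = 0) :
    (se e w he hw)⁻¹ = se e (-w) he (by rw [map_neg, hw, neg_zero]) := by
  rw [inv_eq_iff_mul_eq_one, se_mul]
  refine LinearEquiv.ext fun x => ?_
  change sg Q e (w + -w) x = x
  rw [add_neg_cancel, sg_zero]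

lemma se_congr {e e' w w' : V} (he : Q e = 0) (hw : pl Q e w = 0) (he' : Q e' = 0)
    (hw' : pl Q e' w' = 0)
    (h : ∀ x, pl Q x e • w - (pl Q x w + Q w * pl Q x e) • e =
      pl Q x e' • w' - (pl Q x w' + Q w' * pl Q x e') • e') :
    se e w he hw = se e' w' he' hw' := by
  ext x
  rw [se_apply, se_apply, add_sub_assoc, add_sub_assoc, h]

end Vale.Agent.P318.R2.H924.Om
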