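import Vale.Agent.P318.R2.H924.Om.Tr

/-!
# Root elements as products of conjugates
-/

set_option autoImplicit false

namespace Vale.Agent.P318.R2.H924.Om

open Submodule

variable {K V : Type*} [Field K] [AddCommGroup V] [Module K V] {Q : QuadraticForm K V}

/-- the Siegel transformation in the group -/
noncomputable def rt {e w : V} (he : Q e = 0) (hw : pl Q e w = 0) : Om Q :=
  ⟨se e w he hw, se_mem he hw⟩

lemma rt_mul {e w w' : V} (he : Q e = 0) (hw : pl Q e w = 0) (hw' : pl Q e w' = 0) :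
    rt he hw * rt he hw' = rt he (w := w + w') (by rw [map_add, hw, hw', add_zero]) :=
  Subtype.ext (se_mul he hw hw')

lemma rt_inv {e w : V} (he : Q e = 0) (hw : pl Q e w = 0) :
    (rt he hw)⁻¹ = rt he (w := -w) (by rw [map_neg, hw, neg_zero]) :=
  Subtype.ext (se_inv he hw)

lemma rt_conj (g : Om Q) {e w e' w' : V} (he : Q e = 0) (hw : pl Q e w = 0)
    (he' : Q e' = 0) (hw' : pl Q e' w' = 0) (h1 : g.1 e = e') (h2 : g.1 w = w') :
    g * rt he hw * g⁻¹ = rt he' hw' := by
  subst h1 h2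
  exact Subtype.ext (se_conj g.2 he hw he' hw')

/-- antisymmetry for singular vectors -/
lemma rt_swap {e w : V} (he : Q e = 0) (hw : pl Q e w = 0) (hw0 : Q w = 0) :
    rt he hw = rt hw0 (w := -e) (by rw [map_neg, pl_comm, hw, neg_zero]) := by
  refine Subtype.ext ?_
  change se e w he hw = se w (-e) hw0 (by rw [map_neg, pl_comm, hw, neg_zero])
  refine se_congr _ _ _ _ fun x => ?_
  rw [hw0, QuadraticMap.map_neg, he, map_neg]
  module

lemma rt_one {e w : V} (he : Q e = 0) (hw : pl Q e w = 0) (hs : w ∈ span K {e}) :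
    rt he hw = 1 := by
  obtain ⟨c, rfl⟩ := mem_span_singleton.1 hs
  refine Subtype.ext (LinearEquiv.ext fun x => ?_)
  change se e (c • e) he hw x = x
  rw [se_apply, Q_smul, he, map_smul]
  simp only [smul_eq_mul]
  module

lemma rt_congr {e w w' : V} (he : Q e = 0) (hw : pl Q e w = 0) (hw' : pl Q e w' = 0)
    (h : w = w') : rt he hw = rt he hw' := by
  subst h
  rfl

/-- transitivity on pairs -/
theorem exists_pair (hsep : Sep Q) (hP : P2 Q) {e w e' w' : V} (he : Q e = 0) (hw0 : Q w = 0)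
    (hw : pl Q e w = 0) (he' : Q e' = 0) (hw0' : Q w' = 0) (hw' : pl Q e' w' = 0)
    (hne : e ≠ 0) (hn : w ∉ span K {e}) (hne' : e' ≠ 0) (hn' : w' ∉ span K {e'}) :
    ∃ g : Om Q, g.1 e = e' ∧ g.1 w = w' := by
  have hz : ∀ x : V, x ≠ 0 → x ∉ span K {(0 : V)} := by
    intro x hx h
    obtain ⟨c, hc⟩ := mem_span_singleton.1 h
    exact hx (by rw [← hc, smul_zero])
  have h0 : ∀ x : V, pl Q 0 x = 0 := fun x => by rw [map_zero, LinearMap.zero_apply]
  obtain ⟨g1, hg1, h1, -⟩ := trans_rel hsep hP (e := 0) (map_zero Q) he he' (h0 e) (h0 e')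
    (hz e hne) (hz e' hne')
  obtain ⟨g2, hg2, h3, h4⟩ := trans_rel hsep hP (e := e') (y := g1 w) (y' := w') he'
    (by rw [Q_Om hg1, hw0]) hw0' (by rw [← h1, pl_Om hg1, hw]) hw'
    (by
      intro h
      obtain ⟨c, hc⟩ := mem_span_singleton.1 h
      apply hn
      rw [mem_span_singleton]
      refine ⟨c, g1.injective ?_⟩
      rw [map_smul, h1, hc]) hn'
  refine ⟨⟨g2 * g1, (Om Q).mul_mem hg2 hg1⟩, ?_, ?_⟩
  · change (g2 * g1) e = e'
    rw [LinearEquiv.mul_apply, h1, h4]
  · change (g2 * g1) w = w'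
    rw [LinearEquiv.mul_apply, h3]

theorem isConj_rt (hsep : Sep Q) (hP : P2 Q) {e w e' w' : V} (he : Q e = 0) (hw0 : Q w = 0)
    (hw : pl Q e w = 0) (he' : Q e' = 0) (hw0' : Q w' = 0) (hw' : pl Q e' w' = 0)
    (hne : e ≠ 0) (hn : w ∉ span K {e}) (hne' : e' ≠ 0) (hn' : w' ∉ span K {e'}) :
    IsConj (rt he hw) (rt he' hw') := by
  obtain ⟨g, h1, h2⟩ := exists_pair hsep hP he hw0 hw he' hw0' hw' hne hn hne' hn'
  exact isConj_iff.2 ⟨g, rt_conj g he hw he' hw' h1 h2⟩

/-- the commutator trick -/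
lemma pr_four (x : Om Q) {v u z v' u' : V} (hv : Q v = 0) (hu : Q u = 0) (hvu : pl Q v u = 0)
    (hxz : pl Q (x.1 v) z = 0) (hh1 : se (x.1 v) z (by rw [Q_Om x.2, hv]) hxz v = v')
    (hh2 : se (x.1 v) z (by rw [Q_Om x.2, hv]) hxz u = u) (huu' : pl Q u u' = 0)
    (hu' : u' = v' - v) : R2.H402.Pr 4 x (rt hu huu') := by
  have hw : Q (x.1 v) = 0 := by rw [Q_Om x.2, hv]
  have hxu : pl Q (x.1 v) (x.1 u) = 0 := by rw [pl_Om x.2, hvu]
  have hv' : Q v' = 0 := by
    rw [← hh1, Q_se, hv]
  have hv'u : pl Q v' u = 0 := by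
    rw [← hh1, ← hh2, pl_Om (se_mem hw hxz), hvu]
  set r := rt hv hvu with hr
  set h := rt hw hxz with hh
  have h1 : x * r * x⁻¹ = rt hw hxu := rt_conj x hv hvu hw hxu rfl rfl
  set c := x * (r * x⁻¹ * r⁻¹) with hc
  have hc1 : c = rt hw hxu * r⁻¹ := by
    rw [hc, ← h1]
    group
  have hP2 : R2.H402.Pr 2 x c := (R2.H402.Pr.self x).comm r
  have hP4 : R2.H402.Pr 4 x (c⁻¹ * (h * c⁻¹⁻¹ * h⁻¹)) := hP2.inv.comm h
  have h2 : h * rt hw hxu = rt hw hxu * h := by
    rw [hh, rt_mul, rt_mul]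
    exact rt_congr _ _ _ (add_comm _ _)
  have h3 : h * r * h⁻¹ = rt hv' hv'u := rt_conj h hv hvu hv' hv'u hh1 hh2
  have h4 : c⁻¹ * (h * c⁻¹⁻¹ * h⁻¹) = r * (h * r * h⁻¹)⁻¹ := by
    rw [hc1]
    have e1 : (rt hw hxu)⁻¹ * (h * rt hw hxu) = h := by
      rw [h2, inv_mul_cancel_left]
    calc (rt hw hxu * r⁻¹)⁻¹ * (h * (rt hw hxu * r⁻¹)⁻¹⁻¹ * h⁻¹)
        = r * ((rt hw hxu)⁻¹ * (h * rt hw hxu)) * r⁻¹ * h⁻¹ := by group
      _ = r * (h * r * h⁻¹)⁻¹ := by rw [e1]; group
  have h5 : r * (h * r * h⁻¹)⁻¹ = rt hu huu' := by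
    rw [h3, hr, rt_swap hv hvu hu, rt_swap hv' hv'u hu, rt_inv, rt_mul]
    refine rt_congr _ _ _ ?_
    rw [hu']
    abel
  rw [← h5, ← h4]
  exact hP4

lemma rt_zero {e w : V} (he : Q e = 0) (hw : pl Q e w = 0) (h0 : e = 0) : rt he hw = 1 := by
  subst h0
  refine Subtype.ext (LinearEquiv.ext fun x => ?_)
  change se 0 w he hw x = x
  rw [se_apply, map_zero, zero_smul, smul_zero]
  abel

/-- a nontrivial element yields one long root element -/
lemma exists_four (hsep : Sep Q) (hP : P2 Q) (x : Om Q) {v : V} (hv : Q v = 0)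
    (hx : x.1 v ∉ span K {v}) : ∃ (u s : V) (hu : Q u = 0) (hus : pl Q u s = 0), Q s = 0 ∧
      u ≠ 0 ∧ s ∉ span K {u} ∧ R2.H402.Pr 4 x (rt hu hus) := by
  have hw : Q (x.1 v) = 0 := by rw [Q_Om x.2, hv]
  set w := x.1 v with hwdef
  have hvv := pl_self_of Q hv
  have hww := pl_self_of Q hw
  by_cases hb : pl Q v w = 0
  · obtain ⟨u, hu, hvu, hwu, hn⟩ := hP v w hv hw hb
    have hw0 : w ≠ 0 := by
      intro h
      exact hx (by rw [h]; exact zero_mem _)
    have hvn : v ∉ span K {u, w} := by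
      intro h
      obtain ⟨a, b, hab⟩ := mem_span_pair.1 h
      by_cases ha : a = 0
      · rw [ha, zero_smul, zero_add] at hab
        apply hx
        have hb0 : b ≠ 0 := by
          rintro rfl
          have hv0 : v = 0 := by rw [← hab, zero_smul]
          exact hw0 (by rw [hwdef, hv0, map_zero])
        rw [mem_span_singleton]
        exact ⟨b⁻¹, by rw [← hab, smul_smul, inv_mul_cancel₀ hb0, one_smul]⟩
      · apply hn
        rw [mem_span_pair]
        refine ⟨a⁻¹, -(a⁻¹ * b), ?_⟩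
        nth_rewrite 1 [← hab]
        rw [smul_add, smul_smul, smul_smul, inv_mul_cancel₀ ha, one_smul, neg_smul]
        abel
    obtain ⟨y, hy1, hy2⟩ := hsep _ _ hvn
    have huy := hy1 _ (subset_span (Set.mem_insert _ _))
    have hwy := hy1 _ (subset_span (Set.mem_insert_of_mem _ (Set.mem_singleton _)))
    have hwz : pl Q w (-y) = 0 := by rw [map_neg, hwy, neg_zero]
    have huw : pl Q u w = 0 := by rw [pl_comm, hwu]
    have hu0 : u ≠ 0 := by
      intro h
      exact hn (by rw [h]; exact zero_mem _)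
    refine ⟨u, w, hu, huw, hw, hu0, ?_, ?_⟩
    · intro h
      obtain ⟨c, hc⟩ := mem_span_singleton.1 h
      have hc0 : c ≠ 0 := by
        rintro rfl
        exact hw0 (by rw [← hc, zero_smul])
      apply hn
      rw [mem_span_pair]
      exact ⟨0, c⁻¹, by
        rw [← hc, zero_smul, zero_add, smul_smul, inv_mul_cancel₀ hc0, one_smul]⟩
    · refine pr_four x (v := v) (z := -y) (v' := v + w) hv hu hvu hwz ?_ ?_ huw (by abel)
      · rw [se_apply, ← hwdef, hb, map_neg, hy2]
        module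
      · rw [se_apply, ← hwdef, huw, map_neg, huy]
        simp
  · obtain ⟨t, ht, hvt, -, htn⟩ := hP v v hv hv hvv
    have hvw' : pl Q w v ≠ 0 := by rwa [pl_comm]
    set u := t - (pl Q t w / pl Q v w) • v with hudef
    have hu : Q u = 0 := by
      rw [hudef, Q_sub_smul, ht, hv, pl_comm Q t v, hvt]
      ring
    have hvu : pl Q v u = 0 := by
      rw [hudef, map_sub, map_smul, hvt, hvv]
      simp
    have huw : pl Q u w = 0 := by
      rw [hudef, pl_comm, map_sub, map_smul, pl_comm Q w t, pl_comm Q w v, smul_eq_mul,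
        div_mul_cancel₀ _ hb, sub_self]
    have hun : u ∉ span K {v} := by
      intro h
      apply htn
      have h1 := add_mem h (smul_mem (span K {v}) (pl Q t w / pl Q v w)
        (subset_span (Set.mem_singleton v)))
      rw [hudef, sub_add_cancel] at h1
      rw [Set.pair_eq_singleton]
      exact h1
    obtain ⟨t', ht', hvt', hut', htn'⟩ := hP v u hv hu hvu
    set z := t' - (pl Q t' w / pl Q v w) • v with hzdef
    have hz : Q z = 0 := by
      rw [hzdef, Q_sub_smul, ht', hv, pl_comm Q t' v, hvt']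
      ring
    have hvz : pl Q v z = 0 := by
      rw [hzdef, map_sub, map_smul, hvt', hvv]
      simp
    have huz : pl Q u z = 0 := by
      rw [hzdef, map_sub, map_smul, hut', pl_comm Q u v, hvu]
      simp
    have hwz : pl Q w z = 0 := by
      rw [hzdef, map_sub, map_smul, pl_comm Q w t', pl_comm Q w v, smul_eq_mul,
        div_mul_cancel₀ _ hb, sub_self]
    have hzn : z ∉ span K {v, u} := by
      intro h
      apply htn'
      have h1 := add_mem h (smul_mem (span K {v, u}) (pl Q t' w / pl Q v w)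
        (subset_span (Set.mem_insert _ _)))
      rwa [hzdef, sub_add_cancel] at h1
    have hu0 : u ≠ 0 := by
      intro h
      exact hun (by rw [h]; exact zero_mem _)
    have hus : pl Q u (pl Q v w • z) = 0 := by rw [map_smul, huz, smul_zero]
    refine ⟨u, pl Q v w • z, hu, hus, by rw [Q_smul, hz, mul_zero], hu0, ?_, ?_⟩
    · intro h
      apply hzn
      have h1 := smul_mem _ (pl Q v w)⁻¹ h
      rw [smul_smul, inv_mul_cancel₀ hb, one_smul] at h1
      exact span_mono (Set.subset_insert _ _) h1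
    · refine pr_four x (v := v) (z := z) (v' := v + pl Q v w • z) hv hu hvu hwz ?_ ?_ hus
        (by abel)
      · rw [se_apply, ← hwdef, hvz, hz]
        simp
      · rw [se_apply, ← hwdef, huw, huz]
        simp

/-- all long root elements are products of four conjugates -/
theorem pr_long (hsep : Sep Q) (hP : P2 Q) (x : Om Q) {v : V} (hv : Q v = 0)
    (hx : x.1 v ∉ span K {v}) {e w : V} (he : Q e = 0) (hw : pl Q e w = 0) (hw0 : Q w = 0) :
    R2.H402.Pr 4 x (rt he hw) := by
  by_cases he0 : e = 0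
  · rw [rt_zero he hw he0]
    exact R2.H402.Pr.one 4 x
  by_cases hws : w ∈ span K {e}
  · rw [rt_one he hw hws]
    exact R2.H402.Pr.one 4 x
  obtain ⟨u, s, hu, hus, hs, hu0, hsn, hp⟩ := exists_four hsep hP x hv hx
  exact hp.isConj (isConj_rt hsep hP hu hs hus he hw0 hw hu0 hsn he0 hws)

/-- all Siegel transformations are products of eight conjugates -/
theorem pr_eight (hsep : Sep Q) (hP : P2 Q) (x : Om Q) {v : V} (hv : Q v = 0)
    (hx : x.1 v ∉ span K {v}) {e w : V} (he : Q e = 0) (hw : pl Q e w = 0) :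
    R2.H402.Pr 8 x (rt he hw) := by
  by_cases hw0 : Q w = 0
  · exact (pr_long hsep hP x hv hx he hw hw0).mono (by norm_num)
  have hz : ∃ z, Q z = 0 ∧ pl Q e z = 0 ∧ pl Q w z = 1 := by
    obtain ⟨a, ha, hea, -, han⟩ := hP e e he he (pl_self_of Q he)
    rw [Set.pair_eq_singleton] at han
    by_cases hwa : pl Q w a = 0
    · have hn : a ∉ span K {e, a - w} := by
        intro h
        obtain ⟨p, q, hpq⟩ := mem_span_pair.1 h
        by_cases hq : q = 0
        · rw [hq, zero_smul, add_zero] at hpq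
          exact han (mem_span_singleton.2 ⟨p, hpq⟩)
        · apply hw0
          have h1 : q • w = p • e + (q - 1) • a := by
            linear_combination (norm := module) (-1 : K) • hpq
          have h2 : Q (q • w) = 0 := by
            rw [h1, Q_add, Q_smul, Q_smul, he, ha, map_smul, map_smul, LinearMap.smul_apply,
              hea]
            simp
          rw [Q_smul] at h2
          exact (mul_eq_zero.1 h2).resolve_left (mul_ne_zero hq hq)
      obtain ⟨y, hy1, hy2⟩ := hsep _ _ hn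
      have hey := hy1 _ (subset_span (Set.mem_insert _ _))
      have hwy := hy1 _ (subset_span (Set.mem_insert_of_mem _ (Set.mem_singleton _)))
      rw [map_sub, LinearMap.sub_apply, hy2] at hwy
      have hwy' : pl Q w y = 1 := (sub_eq_zero.1 hwy).symm
      refine ⟨y - Q y • a, ?_, ?_, ?_⟩
      · rw [Q_sub_smul, ha, pl_comm Q y a, hy2]
        ring
      · rw [map_sub, map_smul, hey, hea]
        simp
      · rw [map_sub, map_smul, hwy', hwa]
        simp
    · refine ⟨(pl Q w a)⁻¹ • a, ?_, ?_, ?_⟩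
      · rw [Q_smul, ha, mul_zero]
      · rw [map_smul, hea, smul_zero]
      · rw [map_smul, smul_eq_mul, inv_mul_cancel₀ hwa]
  obtain ⟨z, hz, hez, hwz⟩ := hz
  have h1 : pl Q e (w - Q w • z) = 0 := by
    rw [map_sub, map_smul, hw, hez]
    simp
  have h2 : pl Q e (Q w • z) = 0 := by rw [map_smul, hez, smul_zero]
  have h3 : Q (w - Q w • z) = 0 := by
    rw [Q_sub_smul, hz, hwz]
    ring
  have h4 : Q (Q w • z) = 0 := by rw [Q_smul, hz, mul_zero]
  have h5 := (pr_long hsep hP x hv hx he h1 h3).mul (pr_long hsep hP x hv hx he h2 h4)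
  rw [rt_mul] at h5
  rw [rt_congr he hw (by rw [sub_add_cancel, hw]) (sub_add_cancel w (Q w • z)).symm]
  exact h5

end Vale.Agent.P318.R2.H924.Om
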