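import Vale.Agent.P318.R2.H924.Om.Two
import Vale.Agent.P318.R2.H221.Om3
import Vale.Agent.P318.R2.H356.Sca

/-!
# The gap for the orthogonal groups
-/

set_option autoImplicit false

namespace Vale.Agent.P318.R2.H924.Om

open Submodule

/-- the orthogonal groups in dimension at least seven: `T` is the group generated by the Siegel
transformations `x ↦ x + B(x,e) w - (B(x,w) + Q(w) B(x,e)) e` (`Q e = 0`, `B(e,w) = 0`) of a
quadratic form `Q` with nondegenerate polar form `B`, modulo its centre -/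
def IsPOmega (T : Type*) [Group T] : Prop :=
  ∃ (K : Type) (_ : Field K) (V : Type) (_ : AddCommGroup V) (_ : Module K V)
    (Q : QuadraticForm K V) (H : Subgroup (V ≃ₗ[K] V)),
    Finite K ∧ FiniteDimensional K V ∧ 7 ≤ Module.finrank K V ∧
    (∀ x, (∀ y, QuadraticMap.polar Q x y = 0) → x = 0) ∧
    H = Subgroup.closure {g | ∃ e w : V, Q e = 0 ∧ QuadraticMap.polar Q e w = 0 ∧
      ∀ x, g x = x + QuadraticMap.polar Q x e • w -
        (QuadraticMap.polar Q x w + Q w * QuadraticMap.polar Q x e) • e} ∧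
    Nonempty (T ≃* H ⧸ Subgroup.center H)

theorem gap_pomega_of {T : Type*} [Group T] [Finite T] (hT : IsPOmega T)
    (hgen : ∀ (K V : Type) [Field K] [AddCommGroup V] [Module K V], StGen K V) :
    R2.H678.Gap T (1 / 128) := by
  obtain ⟨K, _, V, _, _, Q, H, hK, hV, h7, hnd, rfl, ⟨e⟩⟩ := hT
  have hnd' : Nd Q := hnd
  have hP : P2 Q := H221.Om.p2 K V Q hK hV hnd' h7
  have hsep : Sep Q := fun S w hw => H221.Om.sep hnd S hw
  have h2 : R2.H402.Two (Om Q ⧸ Subgroup.center (Om Q)) 8 :=
    two_of hsep hP (hgen K V Q hV hnd' hP) (H356.sca K V Q hV hnd' hP)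
  have : Finite (Om Q ⧸ Subgroup.center (Om Q)) := Finite.of_equiv T e.toEquiv
  have h3 := gap_of_two (by norm_num : 0 < 8) h2
  have h4 := Gap.congr h3 (T' := T) e
  exact Gap.mono h4 (by norm_num)

end Vale.Agent.P318.R2.H924.Om
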