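import Vale.Agent.P318.R2.H924.Om.Stmts

/-!
# Transitivity of the group of Siegel transformations
-/

set_option autoImplicit false

namespace Vale.Agent.P318.R2.H924.Om

open Submodule

variable {K V : Type*} [Field K] [AddCommGroup V] [Module K V] {Q : QuadraticForm K V}

/-- separation by the polar form -/
def Sep (Q : QuadraticForm K V) : Prop :=
  ∀ (S : Submodule K V) (w : V), w ∉ S → ∃ y, (∀ s ∈ S, pl Q s y = 0) ∧ pl Q w y = 1

lemma Q_sub_smul (c : K) (x y : V) : Q (x - c • y) = Q x + c * c * Q y - c * pl Q x y := by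
  rw [sub_eq_add_neg, ← neg_smul, Q_add, Q_smul, map_smul, smul_eq_mul]
  ring

/-- one Siegel transformation moves `y` to `y'` -/
lemma move {y y' z : V} (hy : Q y = 0) (hy' : Q y' = 0) (hz : Q z = 0) (h1 : pl Q y z = 1)
    (h2 : pl Q y' z = 1) :
    ∃ g ∈ Om Q, g y = y' ∧ ∀ c, pl Q c z = 0 → pl Q c y = 0 → pl Q c y' = 0 → g c = c := by
  have hw : pl Q z (y' - y) = 0 := by
    rw [map_sub, pl_comm Q z y', pl_comm Q z y, h1, h2, sub_self]
  have hyy := pl_self_of Q hy
  refine ⟨se z (y' - y) hz hw, se_mem hz hw, ?_, ?_⟩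
  · rw [se_apply, h1, one_smul, mul_one]
    have h3 : pl Q y (y' - y) + Q (y' - y) = 0 := by
      have e : Q (y' - y) = - pl Q y' y := by
        have := Q_sub_smul (Q := Q) 1 y' y
        rw [one_smul] at this
        rw [this, hy, hy']
        ring
      rw [e, map_sub, hyy, pl_comm Q y y']
      ring
    rw [h3, zero_smul]
    abel
  · intro c hcz hcy hcy'
    rw [se_apply, hcz, map_sub, hcy, hcy']
    simp

/-- orthogonal singular vectors, fixing a third vector -/
lemma step (hsep : Sep Q) {e y y' : V} (hy : Q y = 0) (hy' : Q y' = 0) (hyy : pl Q y y' = 0)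
    (hey : pl Q e y = 0) (hey' : pl Q e y' = 0) (hn : y ∉ span K {y' - y, e}) :
    ∃ g ∈ Om Q, g y = y' ∧ g e = e := by
  obtain ⟨z0, h1, h2⟩ := hsep _ _ hn
  have h3 := h1 _ (subset_span (Set.mem_insert _ _))
  have h4 := h1 _ (subset_span (Set.mem_insert_of_mem _ (Set.mem_singleton _)))
  rw [map_sub, LinearMap.sub_apply, h2] at h3
  have h5 : pl Q y' z0 = 1 := sub_eq_zero.1 h3
  have hys := pl_self_of Q hy
  have hz : Q (z0 - Q z0 • y) = 0 := by
    rw [Q_sub_smul, hy, pl_comm Q z0 y, h2]
    ring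
  obtain ⟨g, hg, hg1, hg2⟩ := move (z := z0 - Q z0 • y) hy hy' hz
    (by rw [map_sub, map_smul, h2, hys]; simp)
    (by rw [map_sub, map_smul, h5, pl_comm Q y' y, hyy]; simp)
  refine ⟨g, hg, hg1, hg2 e ?_ hey hey'⟩
  rw [map_sub, map_smul, h4, hey]
  simp

lemma notMem_aux {e y a : V} (hy : y ∉ span K {e}) (ha : a ∉ span K {e, y}) :
    y ∉ span K {a - y, e} := by
  intro h
  obtain ⟨k, m, hkm⟩ := mem_span_pair.1 h
  by_cases hk : k = 0
  · apply hy
    rw [mem_span_singleton]
    refine ⟨m, ?_⟩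
    rw [← hkm, hk, zero_smul, zero_add]
  · apply ha
    rw [mem_span_pair]
    refine ⟨-(k⁻¹ * m), k⁻¹ * (1 + k), ?_⟩
    have e1 : (1 + k) • y = k • a + m • e := by
      rw [add_smul, one_smul]
      nth_rewrite 1 [← hkm]
      rw [smul_sub]
      abel
    have e2 : (k⁻¹ * (1 + k)) • y = a + (k⁻¹ * m) • e := by
      rw [mul_smul, e1, smul_add, smul_smul, smul_smul, inv_mul_cancel₀ hk, one_smul]
    rw [e2, neg_smul]
    abel

lemma notMem_aux' {e y a : V} (hy : y ∉ span K {e}) (ha : a ∉ span K {e, y}) :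
    a ∉ span K {y - a, e} := by
  intro h
  obtain ⟨k, m, hkm⟩ := mem_span_pair.1 h
  by_cases hk : 1 + k = 0
  · apply hy
    rw [mem_span_singleton]
    refine ⟨m, ?_⟩
    have hk' : k = -1 := by linear_combination hk
    rw [hk'] at hkm
    have : (-1 : K) • (y - a) = a - y := by rw [neg_one_smul]; abel
    rw [this] at hkm
    have e1 : m • e = a - (a - y) := by
      rw [eq_sub_iff_add_eq, add_comm]
      exact hkm
    rw [e1]
    abel
  · apply ha
    rw [mem_span_pair]
    refine ⟨(1 + k)⁻¹ * m, (1 + k)⁻¹ * k, ?_⟩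
    have e1 : (1 + k) • a = k • y + m • e := by
      rw [add_smul, one_smul]
      nth_rewrite 1 [← hkm]
      rw [smul_sub]
      abel
    have e2 : ((1 + k)⁻¹ * k) • y + ((1 + k)⁻¹ * m) • e = a := by
      rw [mul_smul, mul_smul, ← smul_add, ← e1, smul_smul, inv_mul_cancel₀ hk, one_smul]
    rw [add_comm, e2]

/-- relative transitivity on singular vectors -/
theorem trans_rel (hsep : Sep Q) (hP : P2 Q) {e y y' : V} (he : Q e = 0) (hy : Q y = 0)
    (hy' : Q y' = 0) (hey : pl Q e y = 0) (hey' : pl Q e y' = 0) (hn : y ∉ span K {e})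
    (hn' : y' ∉ span K {e}) : ∃ g ∈ Om Q, g y = y' ∧ g e = e := by
  -- through a third vector
  have through : ∀ a : V, Q a = 0 → pl Q e a = 0 → pl Q y a = 0 → pl Q y' a = 0 →
      a ∉ span K {e, y} → a ∉ span K {e, y'} → ∃ g ∈ Om Q, g y = y' ∧ g e = e := by
    intro a ha hea hya hya' h1 h2
    obtain ⟨g1, hg1, h3, h4⟩ := step hsep (e := e) hy ha hya hey hea (notMem_aux hn h1)
    obtain ⟨g2, hg2, h5, h6⟩ := step hsep (e := e) ha hy' (by rw [pl_comm]; exact hya') hea hey'
      (notMem_aux' hn' h2)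
    refine ⟨g2 * g1, (Om Q).mul_mem hg2 hg1, ?_, ?_⟩
    · rw [LinearEquiv.mul_apply, h3, h5]
    · rw [LinearEquiv.mul_apply, h4, h6]
  obtain ⟨t, ht, het, hyt, htn⟩ := hP e y he hy hey
  by_cases hb : pl Q y y' = 0
  · by_cases hd : y' ∈ span K {e, y}
    · -- the same line
      have hsp : y ∈ span K {e, y'} := by
        obtain ⟨p, q, hpq⟩ := mem_span_pair.1 hd
        have hq : q ≠ 0 := by
          rintro rfl
          apply hn'
          rw [mem_span_singleton]
          exact ⟨p, by rw [← hpq, zero_smul, add_zero]⟩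
        rw [mem_span_pair]
        refine ⟨-(q⁻¹ * p), q⁻¹, ?_⟩
        rw [← hpq, smul_add, smul_smul, smul_smul, inv_mul_cancel₀ hq, one_smul, neg_smul]
        abel
      refine through t ht het hyt ?_ htn ?_
      · obtain ⟨p, q, hpq⟩ := mem_span_pair.1 hd
        rw [← hpq, map_add, map_smul, map_smul, LinearMap.add_apply, LinearMap.smul_apply,
          LinearMap.smul_apply, het, hyt, smul_zero, smul_zero, add_zero]
      · intro h
        apply htn
        have hle : span K {e, y'} ≤ span K {e, y} := by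
          rw [span_le]
          rintro x (rfl | hx)
          · exact subset_span (Set.mem_insert _ _)
          · rw [Set.mem_singleton_iff] at hx
            rw [hx]
            exact hd
        exact hle h
    · exact step hsep hy hy' hb hey hey' (notMem_aux hn hd)
  · refine through (t - (pl Q t y' / pl Q y y') • y) ?_ ?_ ?_ ?_ ?_ ?_
    · rw [Q_sub_smul, ht, hy, pl_comm Q t y, hyt]
      ring
    · rw [map_sub, map_smul, het, hey]
      simp
    · rw [map_sub, map_smul, hyt, pl_self_of Q hy]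
      simp
    · rw [map_sub, map_smul, pl_comm Q y' t, pl_comm Q y' y, smul_eq_mul, div_mul_cancel₀ _ hb,
        sub_self]
    · intro h
      apply htn
      have h1 := add_mem h (smul_mem (span K {e, y}) (pl Q t y' / pl Q y y')
        (subset_span (Set.mem_insert_of_mem _ (Set.mem_singleton y))))
      rwa [sub_add_cancel] at h1
    · intro h
      obtain ⟨m, μ, hm⟩ := mem_span_pair.1 h
      have h1 : pl Q y (t - (pl Q t y' / pl Q y y') • y) = 0 := by
        rw [map_sub, map_smul, hyt, pl_self_of Q hy]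
        simp
      rw [← hm, map_add, map_smul, map_smul, pl_comm Q y e, hey, smul_zero, zero_add,
        smul_eq_mul] at h1
      have h2 : μ = 0 := (mul_eq_zero.1 h1).resolve_right hb
      rw [h2, zero_smul, add_zero] at hm
      apply htn
      rw [mem_span_pair]
      refine ⟨m, pl Q t y' / pl Q y y', ?_⟩
      rw [hm]
      abel

end Vale.Agent.P318.R2.H924.Om
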