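import Vale.Agent.P318.R2.H924.Om.Long
import Vale.Agent.P318.R2.H924.GapTwo

/-!
# The orthogonal groups modulo the centre: two subgroups
-/

set_option autoImplicit false

namespace Vale.Agent.P318.R2.H924.Om

open Submodule

variable {K V : Type*} [Field K] [AddCommGroup V] [Module K V] {Q : QuadraticForm K V}

/-- a hyperbolic pair -/
lemma exists_hyp (hsep : Sep Q) (hP : P2 Q) : ∃ e f : V, Q e = 0 ∧ Q f = 0 ∧ pl Q e f = 1 := by
  have h0 : pl Q 0 0 = 0 := by rw [map_zero]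
  obtain ⟨e, he, -, -, hn⟩ := hP 0 0 (map_zero Q) (map_zero Q) h0
  have hn' : e ∉ (⊥ : Submodule K V) := by
    intro h
    exact hn (by rw [(mem_bot K).1 h]; exact zero_mem _)
  obtain ⟨y, -, hy⟩ := hsep ⊥ e hn'
  refine ⟨e, y - Q y • e, he, ?_, ?_⟩
  · rw [Q_sub_smul, he, pl_comm Q y e, hy]
    ring
  · rw [map_sub, map_smul, hy, pl_self_of Q he]
    simp

/-- the two subgroups -/
theorem two_of (hsep : Sep Q) (hP : P2 Q)
    (hgen : ∀ (e f : V) (he : Q e = 0) (hf : Q f = 0), pl Q e f = 1 →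
      Om Q ≤ rad Q e he ⊔ rad Q f hf)
    (hsca : ∀ g ∈ Om Q, (∀ h ∈ Om Q, g * h = h * g) ∨ ∃ e, Q e = 0 ∧ g e ∉ span K {e}) :
    R2.H402.Two (Om Q ⧸ Subgroup.center (Om Q)) 8 := by
  obtain ⟨e, f, he, hf, hef⟩ := exists_hyp hsep hP
  have hle : ∀ (a : V) (ha : Q a = 0), rad Q a ha ≤ Om Q := by
    rintro a ha g ⟨w, hw, rfl⟩
    exact se_mem ha hw
  refine ⟨((rad Q e he).subgroupOf (Om Q)).map (QuotientGroup.mk' _),
    ((rad Q f hf).subgroupOf (Om Q)).map (QuotientGroup.mk' _), ?_, ?_⟩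
  · rw [← Subgroup.map_sup, ← Subgroup.subgroupOf_sup (hle e he) (hle f hf),
      Subgroup.subgroupOf_eq_top.2 (hgen e f he hf hef)]
    exact Subgroup.map_top_of_surjective _ (QuotientGroup.mk'_surjective _)
  · intro x hx y hy
    obtain ⟨x, rfl⟩ := QuotientGroup.mk'_surjective _ x
    have hxc : x ∉ Subgroup.center (Om Q) := fun h => hx ((QuotientGroup.eq_one_iff x).2 h)
    obtain ⟨v, hv, hxv⟩ := (hsca x.1 x.2).resolve_left fun h => hxc
      (Subgroup.mem_center_iff.2 fun g => Subtype.ext (h g.1 g.2).symm)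
    have key : ∀ (a : V) (ha : Q a = 0), ∀ y,
        y ∈ ((rad Q a ha).subgroupOf (Om Q)).map (QuotientGroup.mk' (Subgroup.center (Om Q))) →
        R2.H402.Pr 8 (QuotientGroup.mk' _ x) y := by
      rintro a ha y ⟨g, hg, rfl⟩
      obtain ⟨w, hw, hgw⟩ := hg
      have h1 := pr_eight hsep hP x hv hxv ha hw
      have h2 : g = rt ha hw := Subtype.ext hgw
      rw [h2]
      exact h1.map _
    rcases hy with hy | hy
    · exact key e he y hy
    · exact key f hf y hy

end Vale.Agent.P318.R2.H924.Om
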